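import Mathlib.Geometry.Manifold.VectorBundle.Riemannian
import Mathlib.Geometry.Manifold.VectorBundle.Tangent
import Mathlib.Geometry.Manifold.PartitionOfUnity
import Mathlib.Analysis.InnerProductSpace.PiL2
import Mathlib.Analysis.InnerProductSpace.EuclideanDist

/-!
# Extension of a Riemannian metric from a neighbourhood of a compact set
-/

open scoped ContDiff Manifold Topology
open Bundle Set

universe u

namespace Vale.Agent.P205.H599

/-- a positive definite form on a finite dimensional space has a bounded unit ball -/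
theorem bdd_of_pos {E : Type} [NormedAddCommGroup E] [NormedSpace ℝ E] [FiniteDimensional ℝ E]
    (B : E →L[ℝ] E →L[ℝ] ℝ) (hp : ∀ v, v ≠ 0 → 0 < B v v) :
    Bornology.IsVonNBounded ℝ {v : E | B v v < 1} := by
  have key : ∃ m : ℝ, 0 < m ∧ ∀ v : E, m * ‖v‖ ^ 2 ≤ B v v := by
    rcases (Metric.sphere (0 : E) 1).eq_empty_or_nonempty with h | h
    · refine ⟨1, one_pos, fun v => ?_⟩
      have hv : v = 0 := by
        by_contra hv
        have : ‖v‖⁻¹ • v ∈ Metric.sphere (0 : E) 1 := by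
          rw [mem_sphere_zero_iff_norm, norm_smul, norm_inv, norm_norm,
            inv_mul_cancel₀ (norm_ne_zero_iff.2 hv)]
        rw [h] at this
        exact this
      rw [hv]
      simp
    · have hc : Continuous fun v : E => B v v := by fun_prop
      obtain ⟨v0, hv0, hmin⟩ := (isCompact_sphere (0 : E) 1).exists_isMinOn h hc.continuousOn
      have hv0' : v0 ≠ 0 := by
        rintro rfl
        rw [mem_sphere_zero_iff_norm, norm_zero] at hv0
        exact zero_ne_one hv0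
      refine ⟨B v0 v0, hp v0 hv0', fun v => ?_⟩
      by_cases hv : v = 0
      · rw [hv]
        simp
      · have hn : ‖v‖ ≠ 0 := norm_ne_zero_iff.2 hv
        have h1 : ‖v‖⁻¹ • v ∈ Metric.sphere (0 : E) 1 := by
          rw [mem_sphere_zero_iff_norm, norm_smul, norm_inv, norm_norm, inv_mul_cancel₀ hn]
        have h2 : B v0 v0 ≤ B (‖v‖⁻¹ • v) (‖v‖⁻¹ • v) := hmin h1
        rw [map_smul, map_smul, smul_apply, smul_eq_mul, smul_eq_mul,
          ← mul_assoc, ← sq, inv_pow] at h2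
        have h3 : 0 < ‖v‖ ^ 2 := by positivity
        rwa [← div_eq_inv_mul, le_div_iff₀ h3] at h2
  obtain ⟨m, hm, hB⟩ := key
  refine (NormedSpace.isVonNBounded_closedBall ℝ E (1 / m + 1)).subset fun v hv => ?_
  rw [mem_closedBall_zero_iff]
  have h1 : m * ‖v‖ ^ 2 < 1 := (hB v).trans_lt hv
  have h2 : ‖v‖ ^ 2 < 1 / m := by
    rw [lt_div_iff₀ hm]
    linarith
  nlinarith [norm_nonneg v, sq_nonneg (‖v‖ - 1)]

/-- a scalar product on a finite dimensional space -/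
theorem exists_pos (E : Type) [NormedAddCommGroup E] [NormedSpace ℝ E] [FiniteDimensional ℝ E] :
    ∃ B : E →L[ℝ] E →L[ℝ] ℝ, (∀ v w, B v w = B w v) ∧ ∀ v, v ≠ 0 → 0 < B v v := by
  refine ⟨(innerSL ℝ (E := EuclideanSpace ℝ (Fin (Module.finrank ℝ E)))).bilinearComp
    (toEuclidean (E := E) : E →L[ℝ] _) (toEuclidean (E := E) : E →L[ℝ] _), fun v w => ?_,
    fun v hv => ?_⟩
  · simp [real_inner_comm]
  · have h : toEuclidean v ≠ 0 := by simpa using hv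
    simpa using real_inner_self_pos.2 h

variable {E : Type} [NormedAddCommGroup E] [NormedSpace ℝ E] [FiniteDimensional ℝ E]
  {M : Type u} [TopologicalSpace M] [ChartedSpace E M] [IsManifold 𝓘(ℝ, E) ∞ M]

omit [FiniteDimensional ℝ E] in
/-- constant sections in a trivialization are smooth -/
theorem symm_const {F : Type} [NormedAddCommGroup F] [NormedSpace ℝ F] {V : M → Type}
    [∀ x, AddCommGroup (V x)] [∀ x, TopologicalSpace (V x)] [∀ x, Module ℝ (V x)]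
    [TopologicalSpace (TotalSpace F V)] [FiberBundle F V] [VectorBundle ℝ F V]
    [ContMDiffVectorBundle ∞ F V 𝓘(ℝ, E)] (x₀ : M) (c : F) :
    ContMDiffOn 𝓘(ℝ, E) (𝓘(ℝ, E).prod 𝓘(ℝ, F)) ∞
      (fun x => TotalSpace.mk' F x ((trivializationAt F V x₀).symm x c))
      (trivializationAt F V x₀).baseSet := by
  refine ((trivializationAt F V x₀).contMDiffOn_section_baseSet_iff).2 ?_
  refine (contMDiffOn_const (c := c)).congr fun y hy => ?_
  rw [(trivializationAt F V x₀).apply_mk_symm hy]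

/-! auxiliary facts for the type class inference -/

omit [FiniteDimensional ℝ E] [IsManifold 𝓘(ℝ, E) ∞ M] in
theorem i1 (x : M) : IsTopologicalAddGroup (TangentSpace 𝓘(ℝ, E) x →L[ℝ] ℝ) :=
  inferInstanceAs (IsTopologicalAddGroup (E →L[ℝ] ℝ))

omit [FiniteDimensional ℝ E] [IsManifold 𝓘(ℝ, E) ∞ M] in
theorem i2 (x : M) : ContinuousAdd (TangentSpace 𝓘(ℝ, E) x →L[ℝ] ℝ) :=
  inferInstanceAs (ContinuousAdd (E →L[ℝ] ℝ))

omit [FiniteDimensional ℝ E] [IsManifold 𝓘(ℝ, E) ∞ M] in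
theorem i3 (x : M) : ContinuousSMul ℝ (TangentSpace 𝓘(ℝ, E) x →L[ℝ] ℝ) :=
  inferInstanceAs (ContinuousSMul ℝ (E →L[ℝ] ℝ))

/-- local metrics -/
theorem exists_local (x₀ : M) : ∃ U ∈ 𝓝 x₀, ∃ s : ∀ x : M,
    TangentSpace 𝓘(ℝ, E) x →L[ℝ] TangentSpace 𝓘(ℝ, E) x →L[ℝ] ℝ,
    ContMDiffOn 𝓘(ℝ, E) (𝓘(ℝ, E).prod 𝓘(ℝ, E →L[ℝ] E →L[ℝ] ℝ)) ∞
      (fun x => TotalSpace.mk' (E →L[ℝ] E →L[ℝ] ℝ)
        (E := fun x : M => TangentSpace 𝓘(ℝ, E) x →L[ℝ] TangentSpace 𝓘(ℝ, E) x →L[ℝ] ℝ)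
        x (s x)) U ∧
    ∀ y ∈ U, (∀ v w, s y v w = s y w v) ∧ ∀ v, v ≠ 0 → 0 < s y v v := by
  obtain ⟨B, hs, hp⟩ := exists_pos E
  have h1 : ∀ x : M, IsTopologicalAddGroup (TangentSpace 𝓘(ℝ, E) x →L[ℝ] ℝ) := fun x => i1 x
  have h2 : ∀ x : M, ContinuousAdd (TangentSpace 𝓘(ℝ, E) x →L[ℝ] ℝ) := fun x => i2 x
  have h3 : ∀ x : M, ContinuousSMul ℝ (TangentSpace 𝓘(ℝ, E) x →L[ℝ] ℝ) := fun x => i3 x
  let e := trivializationAt (E →L[ℝ] E →L[ℝ] ℝ)
    (fun x : M => TangentSpace 𝓘(ℝ, E) x →L[ℝ] TangentSpace 𝓘(ℝ, E) x →L[ℝ] ℝ) x₀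
  refine ⟨e.baseSet, e.open_baseSet.mem_nhds (mem_baseSet_trivializationAt _ _ x₀),
    fun x => e.symm x B, ?_, fun y hy => ?_⟩
  · exact symm_const x₀ B
  · have h1 : y ∈ (trivializationAt E (TangentSpace 𝓘(ℝ, E) : M → Type _) x₀).baseSet := hy.1
    have key : ∀ v w : E, (e.symm y B)
        ((trivializationAt E (TangentSpace 𝓘(ℝ, E) : M → Type _) x₀).symm y v)
        ((trivializationAt E (TangentSpace 𝓘(ℝ, E) : M → Type _) x₀).symm y w) = B v w := by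
      intro v w
      have h2 : (e ⟨y, e.symm y B⟩).2 = B := by rw [e.apply_mk_symm hy]
      have h3 := congrArg (fun L : E →L[ℝ] E →L[ℝ] ℝ => L v w) h2
      have h4 := inCoordinates_apply_eq₂ (𝕜 := ℝ) (F₁ := E)
        (E₁ := fun x : M => TangentSpace 𝓘(ℝ, E) x)
        (F₂ := E) (E₂ := fun x : M => TangentSpace 𝓘(ℝ, E) x) (F₃ := ℝ) (E₃ := fun _ : M => ℝ)
        (ϕ := e.symm y B) (v := v) (w := w) h1 h1 (mem_univ y)
      have h5 : ∀ z : ℝ, (trivializationAt ℝ (fun _ : M => ℝ) x₀).linearMapAt ℝ y z = z := by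
        intro z
        simp
      rw [h5] at h4
      exact h4.symm.trans h3
    have hinv : ∀ v : TangentSpace 𝓘(ℝ, E) y, ∃ w : E,
        (trivializationAt E (TangentSpace 𝓘(ℝ, E) : M → Type _) x₀).symm y w = v := fun v =>
      ⟨_, (trivializationAt E (TangentSpace 𝓘(ℝ, E) : M → Type _) x₀).symm_apply_apply_mk h1 v⟩
    constructor
    · intro v w
      obtain ⟨v', rfl⟩ := hinv v
      obtain ⟨w', rfl⟩ := hinv w
      rw [key, key, hs]
    · intro v hv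
      obtain ⟨v', rfl⟩ := hinv v
      rw [key]
      refine hp _ ?_
      rintro rfl
      refine hv ?_
      rw [← Trivialization.coe_symmₗ (R := ℝ) _ h1, map_zero]

/-- **Extension of a Riemannian metric.** -/
theorem extend [T2Space M] [SigmaCompactSpace M] {U : Set M} (hU : IsOpen U)
    (g : ∀ x : M, TangentSpace 𝓘(ℝ, E) x →L[ℝ] TangentSpace 𝓘(ℝ, E) x →L[ℝ] ℝ)
    (hs : ∀ x ∈ U, ∀ v w, g x v w = g x w v) (hp : ∀ x ∈ U, ∀ v, v ≠ 0 → 0 < g x v v)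
    (hg : ContMDiffOn 𝓘(ℝ, E) (𝓘(ℝ, E).prod 𝓘(ℝ, E →L[ℝ] E →L[ℝ] ℝ)) ∞
      (fun x => TotalSpace.mk' (E →L[ℝ] E →L[ℝ] ℝ)
        (E := fun x : M => TangentSpace 𝓘(ℝ, E) x →L[ℝ] TangentSpace 𝓘(ℝ, E) x →L[ℝ] ℝ)
        x (g x)) U)
    {K : Set M} (hK : IsCompact K) (hKU : K ⊆ U) :
    ∃ (g' : ContMDiffRiemannianMetric 𝓘(ℝ, E) ∞ E (fun x : M => TangentSpace 𝓘(ℝ, E) x))
      (V : Set M), IsOpen V ∧ K ⊆ V ∧ V ⊆ U ∧ ∀ x ∈ V, g'.inner x = g x := by
  have hlc : LocallyCompactSpace M := Manifold.locallyCompact_of_finiteDimensional 𝓘(ℝ, E)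
  have h1 : ∀ x : M, IsTopologicalAddGroup (TangentSpace 𝓘(ℝ, E) x →L[ℝ] ℝ) := fun x => i1 x
  have h2 : ∀ x : M, ContinuousAdd (TangentSpace 𝓘(ℝ, E) x →L[ℝ] ℝ) := fun x => i2 x
  have h3 : ∀ x : M, ContinuousSMul ℝ (TangentSpace 𝓘(ℝ, E) x →L[ℝ] ℝ) := fun x => i3 x
  obtain ⟨L, hL, hKL, hLU⟩ := exists_compact_between hK hU hKU
  obtain ⟨s, hs'⟩ := exists_contMDiffSection_forall_mem_convex_of_local (n := ⊤) 𝓘(ℝ, E)
    (F_fiber := E →L[ℝ] E →L[ℝ] ℝ)
    (fun x : M => TangentSpace 𝓘(ℝ, E) x →L[ℝ] TangentSpace 𝓘(ℝ, E) x →L[ℝ] ℝ)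
    (fun x => {B | ((∀ v w, B v w = B w v) ∧ ∀ v, v ≠ 0 → 0 < B v v) ∧ (x ∈ L → B = g x)})
    (by
      rintro x B1 ⟨⟨h1, h2⟩, h3⟩ B2 ⟨⟨h1', h2'⟩, h3'⟩ a b ha hb hab
      refine ⟨⟨fun v w => ?_, fun v hv => ?_⟩, fun hx => ?_⟩
      · change a * B1 v w + b * B2 v w = a * B1 w v + b * B2 w v
        rw [h1, h1']
      · change 0 < a * B1 v v + b * B2 v v
        rcases ha.eq_or_lt with rfl | ha
        · have : b = 1 := by linarith
          rw [this]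
          simpa using h2' v hv
        · exact add_pos_of_pos_of_nonneg (mul_pos ha (h2 v hv)) (mul_nonneg hb (h2' v hv).le)
      · rw [h3 hx, h3' hx, ← add_smul, hab, one_smul])
    (by
      intro x₀
      by_cases hx : x₀ ∈ L
      · exact ⟨U, hU.mem_nhds (hLU hx), g, hg, fun y hy => ⟨⟨hs y hy, hp y hy⟩, fun _ => rfl⟩⟩
      · obtain ⟨V, hV, t, ht, htp⟩ := exists_local (E := E) x₀
        refine ⟨V ∩ Lᶜ, Filter.inter_mem hV (hL.isClosed.isOpen_compl.mem_nhds hx), t,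
          ht.mono inter_subset_left, fun y hy => ⟨htp y hy.1, fun h => absurd h hy.2⟩⟩)
  refine ⟨{
    inner := s
    symm := fun x => (hs' x).1.1
    pos := fun x => (hs' x).1.2
    isVonNBounded := fun x => bdd_of_pos (E := E) (s x) (hs' x).1.2
    contMDiff := s.contMDiff }, interior L, isOpen_interior, hKL,
      interior_subset.trans hLU, fun x hx => (hs' x).2 (interior_subset hx)⟩

end Vale.Agent.P205.H599
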