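import Vale.Agent.P205.H599.Ext
import Mathlib.Geometry.Manifold.MFDeriv.NormedSpace
import Mathlib.Geometry.Manifold.MFDeriv.Atlas

/-!
# Riemannian metrics on open submanifolds
-/

open scoped ContDiff Manifold Topology
open Bundle Set TopologicalSpace

universe u

namespace Vale.Agent.P205.H599

variable {E : Type} [NormedAddCommGroup E] [NormedSpace ℝ E]
  {M : Type u} [TopologicalSpace M] [ChartedSpace E M]

omit [NormedSpace ℝ E] in
/-- the coordinate changes of an open submanifold -/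
theorem chart_symm (U : Opens M) (x : U) {z : U} (hz : (z : M) ∈ (chartAt E (x : M)).source) :
    ∀ᶠ p in 𝓝 (chartAt E (x : M) z), ((chartAt E x).symm p : M) = (chartAt E (x : M)).symm p := by
  have h1 : (chartAt E x).target ∈ 𝓝 (chartAt E (x : M) z) := by
    refine (chartAt E x).open_target.mem_nhds ?_
    exact (chartAt E (x : M)).map_subtype_source ⟨x⟩ hz
  filter_upwards [h1] with p hp
  exact (chartAt E (x : M)).subtypeRestr_symm_apply ⟨x⟩ hp

variable [IsManifold 𝓘(ℝ, E) ∞ M]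

theorem tcc (U : Opens M) (x y : U) {z : U} (hz : (z : M) ∈ (chartAt E (x : M)).source) :
    tangentCoordChange 𝓘(ℝ, E) x y z = tangentCoordChange 𝓘(ℝ, E) (x : M) (y : M) (z : M) := by
  rw [tangentCoordChange_def, tangentCoordChange_def]
  simp only [mfld_simps, fderivWithin_univ]
  refine Filter.EventuallyEq.fderiv_eq ?_
  filter_upwards [chart_symm U x hz] with p hp
  change chartAt E (y : M) ((chartAt E x).symm p : M) = chartAt E (y : M) ((chartAt E (x : M)).symm p)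
  rw [hp]

omit [IsManifold 𝓘(ℝ, E) ∞ M] in
/-- the derivative of the inclusion -/
theorem mfderiv_val (U : Opens M) (x : U) :
    mfderiv 𝓘(ℝ, E) 𝓘(ℝ, E) (Subtype.val : U → M) x = ContinuousLinearMap.id ℝ E := by
  have hd : MDifferentiableAt 𝓘(ℝ, E) 𝓘(ℝ, E) (Subtype.val : U → M) x :=
    (contMDiff_subtype_val (n := 1) x).mdifferentiableAt one_ne_zero
  refine hd.mfderiv.trans ?_
  simp only [writtenInExtChartAt, mfld_simps, fderivWithin_univ]
  have h1 : (fun p => chartAt E (x : M) ((chartAt E x).symm p : M)) =ᶠ[𝓝 (chartAt E (x : M) x)] id := by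
    filter_upwards [chart_symm U x (mem_chart_source E (x : M)),
      (chartAt E (x : M)).open_target.mem_nhds (mem_chart_target E (x : M))] with p hp hp2
    rw [hp, (chartAt E (x : M)).right_inv hp2]
    rfl
  exact h1.fderiv_eq.trans fderiv_id

/-- derivatives of restrictions -/
theorem mvf_val (U : Opens M) {X : M → ℝ} (hX : ContMDiff 𝓘(ℝ, E) 𝓘(ℝ) ∞ X) (x : U) (v : E) :
    mvfderiv 𝓘(ℝ, E) (fun z : U => X z) x v = mvfderiv 𝓘(ℝ, E) X (x : M) v := by
  have h1 : MDifferentiableAt 𝓘(ℝ, E) 𝓘(ℝ) X (x : M) :=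
    (hX x).mdifferentiableAt (by simp)
  have hd : MDifferentiableAt 𝓘(ℝ, E) 𝓘(ℝ, E) (Subtype.val : U → M) x :=
    (contMDiff_subtype_val (n := 1) x).mdifferentiableAt one_ne_zero
  have h2 := mfderiv_comp x h1 hd
  rw [mfderiv_val] at h2
  change NormedSpace.fromTangentSpace _ (mfderiv 𝓘(ℝ, E) 𝓘(ℝ) (X ∘ Subtype.val) x v) = _
  rw [h2]
  rfl

open Classical in
/-- a metric on the open submanifold `U` as a field of forms on `M` -/
noncomputable def pf (U : Opens M)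
    (g : ContMDiffRiemannianMetric 𝓘(ℝ, E) ∞ E (fun x : U => TangentSpace 𝓘(ℝ, E) x)) (y : M) :
    TangentSpace 𝓘(ℝ, E) y →L[ℝ] TangentSpace 𝓘(ℝ, E) y →L[ℝ] ℝ :=
  if h : y ∈ U then (show E →L[ℝ] E →L[ℝ] ℝ from g.inner ⟨y, h⟩) else 0

theorem pf_val (U : Opens M)
    (g : ContMDiffRiemannianMetric 𝓘(ℝ, E) ∞ E (fun x : U => TangentSpace 𝓘(ℝ, E) x)) (x : U)
    (v w : E) : pf U g (x : M) v w = g.inner x v w := by
  have : pf U g (x : M) = (show E →L[ℝ] E →L[ℝ] ℝ from g.inner x) := dif_pos x.2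
  rw [this]
  rfl

/-- coordinates of a form in the bundle of bilinear forms -/
theorem coord {N : Type u} [TopologicalSpace N] [ChartedSpace E N] [IsManifold 𝓘(ℝ, E) ∞ N]
    (x₀ x : N) (hx : x ∈ (chartAt E x₀).source)
    (L : TangentSpace 𝓘(ℝ, E) x →L[ℝ] TangentSpace 𝓘(ℝ, E) x →L[ℝ] ℝ) (v w : E) :
    (trivializationAt (E →L[ℝ] E →L[ℝ] ℝ)
      (fun x : N => TangentSpace 𝓘(ℝ, E) x →L[ℝ] TangentSpace 𝓘(ℝ, E) x →L[ℝ] ℝ) x₀
      ⟨x, L⟩).2 v w = L (tangentCoordChange 𝓘(ℝ, E) x₀ x x v)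
        (tangentCoordChange 𝓘(ℝ, E) x₀ x x w) := by
  have h1 : x ∈ (trivializationAt E (TangentSpace 𝓘(ℝ, E) : N → Type _) x₀).baseSet := hx
  have h4 := inCoordinates_apply_eq₂ (𝕜 := ℝ) (F₁ := E)
    (E₁ := fun x : N => TangentSpace 𝓘(ℝ, E) x)
    (F₂ := E) (E₂ := fun x : N => TangentSpace 𝓘(ℝ, E) x) (F₃ := ℝ) (E₃ := fun _ : N => ℝ)
    (ϕ := L) (v := v) (w := w) h1 h1 (mem_univ x)
  have h5 : ∀ z : ℝ, (trivializationAt ℝ (fun _ : N => ℝ) x₀).linearMapAt ℝ x z = z := by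
    intro z
    simp
  rw [h5] at h4
  refine Eq.trans h4 ?_
  have h6 : ∀ u : E, (trivializationAt E (TangentSpace 𝓘(ℝ, E) : N → Type _) x₀).symm x u =
      tangentCoordChange 𝓘(ℝ, E) x₀ x x u := by
    intro u
    have h7 := TangentBundle.symmL_trivializationAt_eq_core (I := 𝓘(ℝ, E)) (𝕜 := ℝ) hx
    have h8 := congrArg (fun T : E →L[ℝ] E => T u) h7
    have h9 : (trivializationAt E (TangentSpace 𝓘(ℝ, E) : N → Type _) x₀).symmL ℝ x u =
        (trivializationAt E (TangentSpace 𝓘(ℝ, E) : N → Type _) x₀).symm x u :=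
      Trivialization.symmL_apply (R := ℝ) _ h1 u
    exact h9.symm.trans h8
  exact congrArg₂ (fun a b => L a b) (h6 v) (h6 w)

theorem pf_smooth (U : Opens M)
    (g : ContMDiffRiemannianMetric 𝓘(ℝ, E) ∞ E (fun x : U => TangentSpace 𝓘(ℝ, E) x)) :
    ContMDiffOn 𝓘(ℝ, E) (𝓘(ℝ, E).prod 𝓘(ℝ, E →L[ℝ] E →L[ℝ] ℝ)) ∞
      (fun x => TotalSpace.mk' (E →L[ℝ] E →L[ℝ] ℝ)
        (E := fun x : M => TangentSpace 𝓘(ℝ, E) x →L[ℝ] TangentSpace 𝓘(ℝ, E) x →L[ℝ] ℝ)
        x (pf U g x)) U := by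
  intro y hy
  refine ContMDiffAt.contMDiffWithinAt ?_
  rw [contMDiffAt_section]
  have h1 := (Bundle.contMDiffAt_section (⟨y, hy⟩ : U)).1 (g.contMDiff ⟨y, hy⟩)
  rw [← contMDiffAt_subtype_iff (x := (⟨y, hy⟩ : U))]
  refine h1.congr_of_eventuallyEq ?_
  filter_upwards [(chartAt E (⟨y, hy⟩ : U)).open_source.mem_nhds (mem_chart_source E _)] with z hz
  have hz' : (z : M) ∈ (chartAt E y).source := by
    have := (chartAt E y).subtypeRestr_source ⟨(⟨y, hy⟩ : U)⟩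
    have h2 : z ∈ ((chartAt E y).subtypeRestr ⟨(⟨y, hy⟩ : U)⟩).source := hz
    rw [this] at h2
    exact h2
  ext v w
  rw [coord _ _ hz', coord _ _ hz, pf_val, tcc U _ _ hz']

end Vale.Agent.P205.H599
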